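import Vale.Agent.Lib.P254.Lim.Minimizer

/-!
# P254, centroid inequality for corners in dimension three: the finite tilt

Let `K = K0 ∩ half u` with all coefficients of `u` positive, and let `x0` be an interior
point of `K0` on the plane `u · x = 1` at which `cvec K · x0 ≠ 4`.  Then a small tilt of the
half-space strictly decreases the ratio `rho` (`tilt_set`).
-/

open MeasureTheory Set Filter Topology

namespace Vale.Agent.Lib.P254.Lim

/-- The coefficient vector with entries `|K| / ∫_K x_i`. -/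
noncomputable def cvec (K : Set E3) : E3 := fun i => vol K / mom K i

/-! ### A linear change of coordinates -/

/-- The matrix with first row `u` and the other rows those of the identity. -/
def Pm (u : E3) : Matrix (Fin 3) (Fin 3) ℝ := !![u 0, u 1, u 2; 0, 1, 0; 0, 0, 1]

/-- The linear map `x ↦ (u · x, x 1, x 2)`. -/
noncomputable def Phi (u : E3) : E3 →ₗ[ℝ] E3 := Matrix.toLin' (Pm u)

theorem Phi_zero (u x : E3) : Phi u x 0 = dot u x := by
  unfold Phi Pm dot
  rw [Matrix.toLin'_apply]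
  simp [Matrix.mulVec, dotProduct, Fin.sum_univ_three]

theorem Phi_one (u x : E3) : Phi u x 1 = x 1 := by
  unfold Phi Pm
  rw [Matrix.toLin'_apply]
  simp [Matrix.mulVec, dotProduct, Fin.sum_univ_three]

theorem Phi_two (u x : E3) : Phi u x 2 = x 2 := by
  unfold Phi Pm
  rw [Matrix.toLin'_apply]
  simp [Matrix.mulVec, dotProduct, Fin.sum_univ_three]

theorem det_Phi (u : E3) : LinearMap.det (Phi u) = u 0 := by
  unfold Phi Pm
  rw [LinearMap.det_toLin', Matrix.det_fin_three]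
  simp

/-- A half-open box. -/
def box (a b : E3) : Set E3 := Set.pi Set.univ fun i => Set.Ioc (a i) (b i)

theorem mem_box (a b x : E3) : x ∈ box a b ↔ ∀ i, a i < x i ∧ x i ≤ b i := by
  unfold box
  simp [Set.mem_pi]

theorem measurableSet_preimage_box (u a b : E3) : MeasurableSet (Phi u ⁻¹' box a b) :=
  (LinearMap.continuous_of_finiteDimensional (Phi u)).measurable
    (MeasurableSet.univ_pi (fun _ => measurableSet_Ioc))

theorem volume_preimage_box (u : E3) (hu0 : 0 < u 0) (a b : E3) (hab : ∀ i, a i ≤ b i) :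
    volume (Phi u ⁻¹' box a b) = ENNReal.ofReal ((u 0)⁻¹ * ∏ i, (b i - a i)) := by
  have hdet : LinearMap.det (Phi u) ≠ 0 := by
    rw [det_Phi]
    exact hu0.ne'
  rw [Measure.addHaar_preimage_linearMap volume hdet, det_Phi, abs_of_pos (inv_pos.mpr hu0)]
  unfold box
  rw [Real.volume_pi_Ioc, ENNReal.ofReal_mul (inv_pos.mpr hu0).le,
    ENNReal.ofReal_prod_of_nonneg (fun i _ => sub_nonneg.mpr (hab i))]

theorem volume_real_preimage_box (u : E3) (hu0 : 0 < u 0) (a b : E3) (hab : ∀ i, a i ≤ b i) :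
    volume.real (Phi u ⁻¹' box a b) = (u 0)⁻¹ * ((b 0 - a 0) * (b 1 - a 1) * (b 2 - a 2)) := by
  rw [measureReal_def, volume_preimage_box u hu0 a b hab, ENNReal.toReal_ofReal,
    Fin.prod_univ_three]
  refine mul_nonneg (inv_pos.mpr hu0).le (Finset.prod_nonneg (fun i _ => sub_nonneg.mpr (hab i)))

/-! ### Differences of integrals -/

theorem setIntegral_sub_eq_diff {A B : Set E3} (hA : MeasurableSet A) (hB : MeasurableSet B)
    (f : E3 → ℝ) (hfA : IntegrableOn f A) (hfB : IntegrableOn f B) :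
    (∫ x in A, f x) - ∫ x in B, f x = (∫ x in A \ B, f x) - ∫ x in B \ A, f x := by
  have h1 := integral_inter_add_sdiff hB hfA
  have h2 := integral_inter_add_sdiff hA hfB
  rw [Set.inter_comm] at h2
  linarith

/-! ### The algebraic step -/

theorem quartic_lt (a b0 b1 b2 δ ε : ℝ) (hδ : δ ≤ 1 / 2) (ha : |a| ≤ δ) (hb0 : |b0| ≤ δ)
    (hb1 : |b1| ≤ δ) (hb2 : |b2| ≤ δ) (h : ε ≤ b0 + b1 + b2 - 4 * a) (hε : 13 * δ ^ 2 < ε) :
    (1 + a) ^ 4 < (1 + b0) * (1 + b1) * (1 + b2) := by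
  have hδ0 : 0 ≤ δ := le_trans (abs_nonneg a) ha
  obtain ⟨ha1, ha2⟩ := abs_le.mp ha
  obtain ⟨hb01, hb02⟩ := abs_le.mp hb0
  obtain ⟨hb11, hb12⟩ := abs_le.mp hb1
  obtain ⟨hb21, hb22⟩ := abs_le.mp hb2
  have s1 : (1 + a) ^ 4 ≤ 1 + 4 * a + 9 * a ^ 2 := by
    have h3 : a ^ 2 + 4 * a - 3 ≤ 0 := by nlinarith
    have h4 : (1 + a) ^ 4 - (1 + 4 * a + 9 * a ^ 2) = a ^ 2 * (a ^ 2 + 4 * a - 3) := by ring
    have h5 : a ^ 2 * (a ^ 2 + 4 * a - 3) ≤ 0 :=
      mul_nonpos_of_nonneg_of_nonpos (sq_nonneg a) h3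
    linarith
  have s2 : a ^ 2 ≤ δ ^ 2 := by nlinarith
  have p01 : -(δ ^ 2) ≤ b0 * b1 := by nlinarith
  have p02 : -(δ ^ 2) ≤ b0 * b2 := by nlinarith
  have p12 : -(δ ^ 2) ≤ b1 * b2 := by nlinarith
  have q01 : b0 * b1 ≤ δ ^ 2 := by nlinarith
  have p012 : -(δ ^ 2) / 2 ≤ b0 * b1 * b2 := by
    have hb2' : |b2| ≤ 1 / 2 := le_trans hb2 hδ
    have h6 : |b0 * b1 * b2| ≤ δ ^ 2 * (1 / 2) := by
      rw [abs_mul]
      refine mul_le_mul ?_ hb2' (abs_nonneg _) (sq_nonneg _)
      rw [abs_le]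
      exact ⟨p01, q01⟩
    have := (abs_le.mp h6).1
    linarith
  have s3 : 1 + (b0 + b1 + b2) - 4 * δ ^ 2 ≤ (1 + b0) * (1 + b1) * (1 + b2) := by
    have h7 : (1 + b0) * (1 + b1) * (1 + b2)
        = 1 + (b0 + b1 + b2) + (b0 * b1 + b0 * b2 + b1 * b2) + b0 * b1 * b2 := by ring
    rw [h7]
    nlinarith [sq_nonneg δ]
  nlinarith [sq_nonneg δ]

theorem rho_lt (V M0 M1 M2 V' M0' M1' M2' m d e : ℝ) (hm : 0 < m) (hmV : m ≤ V)
    (hm0 : m ≤ M0) (hm1 : m ≤ M1) (hm2 : m ≤ M2) (hd : d ≤ m / 2)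
    (hV : |V' - V| ≤ d) (h0 : |M0' - M0| ≤ d) (h1 : |M1' - M1| ≤ d) (h2 : |M2' - M2| ≤ d)
    (he : e ≤ V / M0 * M0' + V / M1 * M1' + V / M2 * M2' - 4 * V' + V)
    (hbig : 13 * (d / m) ^ 2 * V < e) :
    V' ^ 4 / (M0' * M1' * M2') < V ^ 4 / (M0 * M1 * M2) := by
  have hVpos : 0 < V := lt_of_lt_of_le hm hmV
  have hM0 : 0 < M0 := lt_of_lt_of_le hm hm0
  have hM1 : 0 < M1 := lt_of_lt_of_le hm hm1
  have hM2 : 0 < M2 := lt_of_lt_of_le hm hm2
  have hd0 : 0 ≤ d := le_trans (abs_nonneg _) hV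
  have key : ∀ X X' : ℝ, m ≤ X → |X' - X| ≤ d → |(X' - X) / X| ≤ d / m := by
    intro X X' hX hXX
    have hXpos : 0 < X := lt_of_lt_of_le hm hX
    rw [abs_div, abs_of_pos hXpos]
    calc |X' - X| / X ≤ d / X := div_le_div_of_nonneg_right hXX hXpos.le
      _ ≤ d / m := div_le_div_of_nonneg_left hd0 hm hX
  have hδ : d / m ≤ 1 / 2 := by
    rw [div_le_iff₀ hm]
    linarith
  have hsum : e / V ≤ (M0' - M0) / M0 + (M1' - M1) / M1 + (M2' - M2) / M2
      - 4 * ((V' - V) / V) := by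
    rw [div_le_iff₀ hVpos]
    have e1 : ((M0' - M0) / M0 + (M1' - M1) / M1 + (M2' - M2) / M2 - 4 * ((V' - V) / V)) * V
        = V / M0 * M0' + V / M1 * M1' + V / M2 * M2' - 4 * V' + V := by
      field_simp
      ring
    rw [e1]
    exact he
  have hbig' : 13 * (d / m) ^ 2 < e / V := by
    rw [lt_div_iff₀ hVpos]
    exact hbig
  have hq := quartic_lt ((V' - V) / V) ((M0' - M0) / M0) ((M1' - M1) / M1) ((M2' - M2) / M2)
    (d / m) (e / V) hδ (key V V' hmV hV) (key M0 M0' hm0 h0) (key M1 M1' hm1 h1)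
    (key M2 M2' hm2 h2) hsum hbig'
  have e2 : 1 + (V' - V) / V = V' / V := by
    field_simp
    ring
  have e3 : ∀ X X' : ℝ, 0 < X → 1 + (X' - X) / X = X' / X := by
    intro X X' hX
    field_simp
    ring
  rw [e2, e3 M0 M0' hM0, e3 M1 M1' hM1, e3 M2 M2' hM2] at hq
  have pos : ∀ X X' : ℝ, m ≤ X → |X' - X| ≤ d → 0 < X' := by
    intro X X' hX hXX
    have := (abs_le.mp hXX).1
    linarith
  have hM0' := pos M0 M0' hm0 h0
  have hM1' := pos M1 M1' hm1 h1
  have hM2' := pos M2 M2' hm2 h2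
  rw [div_lt_div_iff₀ (by positivity) (by positivity)]
  have e4 : (V' / V) ^ 4 = V' ^ 4 / V ^ 4 := by rw [div_pow]
  have e5 : M0' / M0 * (M1' / M1) * (M2' / M2) = M0' * M1' * M2' / (M0 * M1 * M2) := by
    field_simp
  rw [e4, e5, div_lt_div_iff₀ (by positivity) (by positivity)] at hq
  linarith

/-! ### Boxes in the new coordinates -/

theorem mem_preimage_box3 (u x : E3) (a0 a1 a2 b0 b1 b2 : ℝ) :
    x ∈ Phi u ⁻¹' box ![a0, a1, a2] ![b0, b1, b2]
      ↔ (a0 < dot u x ∧ dot u x ≤ b0) ∧ (a1 < x 1 ∧ x 1 ≤ b1) ∧ (a2 < x 2 ∧ x 2 ≤ b2) := by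
  rw [Set.mem_preimage, mem_box]
  constructor
  · intro h
    have h0 := h 0
    have h1 := h 1
    have h2 := h 2
    rw [Phi_zero] at h0
    rw [Phi_one] at h1
    rw [Phi_two] at h2
    exact ⟨by simpa using h0, by simpa using h1, by simpa using h2⟩
  · rintro ⟨h0, h1, h2⟩ i
    fin_cases i
    · simpa [Phi_zero] using h0
    · simpa [Phi_one] using h1
    · simpa [Phi_two] using h2

theorem volume_real_preimage_box3 (u : E3) (hu0 : 0 < u 0) (a0 a1 a2 b0 b1 b2 : ℝ)
    (h0 : a0 ≤ b0) (h1 : a1 ≤ b1) (h2 : a2 ≤ b2) :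
    volume.real (Phi u ⁻¹' box ![a0, a1, a2] ![b0, b1, b2])
      = (u 0)⁻¹ * ((b0 - a0) * (b1 - a1) * (b2 - a2)) := by
  have hab : ∀ i : Fin 3, (![a0, a1, a2] : E3) i ≤ (![b0, b1, b2] : E3) i := by
    intro i
    fin_cases i
    · simpa using h0
    · simpa using h1
    · simpa using h2
  rw [volume_real_preimage_box u hu0 _ _ hab]
  simp

theorem volume_preimage_box_ne_top (u : E3) (hu0 : 0 < u 0) (a b : E3) (hab : ∀ i, a i ≤ b i) :
    volume (Phi u ⁻¹' box a b) ≠ ⊤ := by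
  rw [volume_preimage_box u hu0 a b hab]
  exact ENNReal.ofReal_ne_top

theorem mem_closedBall_of_box (u : E3) (hu : ∀ i, 0 < u i) (x0 : E3) (hux : dot u x0 = 1)
    (r1 r2 η : ℝ) (hr1 : 0 ≤ r1) (hr2 : r2 ≤ r1) (h2 : (u 1 + u 2) * r2 ≤ u 0 * r1 / 2)
    (hη : η ≤ u 0 * r1 / 2) (x : E3) (h0 : |dot u x - 1| ≤ η) (h1 : |x 1 - x0 1| ≤ r2)
    (h2' : |x 2 - x0 2| ≤ r2) : x ∈ Metric.closedBall x0 r1 := by
  rw [Metric.mem_closedBall, dist_pi_le_iff hr1]
  have key : |x 0 - x0 0| ≤ r1 := by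
    have e : u 0 * (x 0 - x0 0)
        = (dot u x - 1) - u 1 * (x 1 - x0 1) - u 2 * (x 2 - x0 2) := by
      rw [← hux]
      unfold dot
      rw [Fin.sum_univ_three, Fin.sum_univ_three]
      ring
    have a1 : |u 1 * (x 1 - x0 1)| ≤ u 1 * r2 := by
      rw [abs_mul, abs_of_pos (hu 1)]
      exact mul_le_mul_of_nonneg_left h1 (hu 1).le
    have a2 : |u 2 * (x 2 - x0 2)| ≤ u 2 * r2 := by
      rw [abs_mul, abs_of_pos (hu 2)]
      exact mul_le_mul_of_nonneg_left h2' (hu 2).le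
    have h3 : |u 0 * (x 0 - x0 0)| ≤ u 0 * r1 := by
      rw [e]
      have t1 := abs_sub (dot u x - 1 - u 1 * (x 1 - x0 1)) (u 2 * (x 2 - x0 2))
      have t2 := abs_sub (dot u x - 1) (u 1 * (x 1 - x0 1))
      nlinarith
    rw [abs_mul, abs_of_pos (hu 0)] at h3
    exact le_of_mul_le_mul_left h3 (hu 0)
  intro i
  rw [Real.dist_eq]
  fin_cases i
  · exact key
  · exact le_trans h1 hr2
  · exact le_trans h2' hr2

/-! ### The tilted half-space -/

/-- The tilted coefficients: `u - τ c` divided by `1 - 4 τ`. -/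
noncomputable def utilt (u c : E3) (τ : ℝ) : E3 := fun i => (u i - τ * c i) / (1 - 4 * τ)

theorem mem_half_utilt (u c : E3) (τ : ℝ) (hτ : 4 * τ < 1) (x : E3) :
    x ∈ half (utilt u c τ) ↔ dot u x - 1 ≤ τ * (dot c x - 4) := by
  have h1 : 0 < 1 - 4 * τ := by linarith
  have e : dot (utilt u c τ) x = (dot u x - τ * dot c x) / (1 - 4 * τ) := by
    unfold dot utilt
    rw [Fin.sum_univ_three, Fin.sum_univ_three, Fin.sum_univ_three]
    field_simp
    ring
  change dot (utilt u c τ) x ≤ 1 ↔ _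
  rw [e, div_le_one h1]
  constructor <;> intro h <;> linarith

theorem dot_bounds (c : E3) (hc : ∀ i, 0 ≤ c i) (x : E3) (hx : x ∈ cube) :
    |dot c x - 4| ≤ c 0 + c 1 + c 2 + 4 := by
  have hx' := (mem_cube_iff x).mp hx
  have e : dot c x = c 0 * x 0 + c 1 * x 1 + c 2 * x 2 := by
    unfold dot
    rw [Fin.sum_univ_three]
  have l0 : 0 ≤ c 0 * x 0 := mul_nonneg (hc 0) (hx' 0).1
  have l1 : 0 ≤ c 1 * x 1 := mul_nonneg (hc 1) (hx' 1).1
  have l2 : 0 ≤ c 2 * x 2 := mul_nonneg (hc 2) (hx' 2).1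
  have m0 : c 0 * x 0 ≤ c 0 := mul_le_of_le_one_right (hc 0) (hx' 0).2
  have m1 : c 1 * x 1 ≤ c 1 := mul_le_of_le_one_right (hc 1) (hx' 1).2
  have m2 : c 2 * x 2 ≤ c 2 := mul_le_of_le_one_right (hc 2) (hx' 2).2
  rw [abs_le, e]
  constructor <;> linarith

theorem integrableOn_coord (S : Set E3) (hSc : S ⊆ cube) (i : Fin 3) :
    IntegrableOn (fun x : E3 => x i) S :=
  ((continuous_apply i).continuousOn.integrableOn_compact isCompact_cube).mono_set hSc

theorem integrableOn_G (c : E3) (S : Set E3) (hSc : S ⊆ cube) :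
    IntegrableOn (fun x : E3 => dot c x - 4) S :=
  (((continuous_dot c).sub continuous_const).continuousOn.integrableOn_compact
    isCompact_cube).mono_set hSc

theorem integral_G (c : E3) (S : Set E3) (hSc : S ⊆ cube) :
    ∫ x in S, (dot c x - 4) = c 0 * mom S 0 + c 1 * mom S 1 + c 2 * mom S 2 - 4 * vol S := by
  have hfin : volume S ≠ ⊤ := ne_top_of_le_ne_top volume_cube_ne_top (measure_mono hSc)
  have e : ∀ x : E3, dot c x - 4 = c 0 * x 0 + c 1 * x 1 + c 2 * x 2 - 4 := by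
    intro x
    unfold dot
    rw [Fin.sum_univ_three]
  simp_rw [e]
  have i0 := (integrableOn_coord S hSc 0).const_mul (c 0)
  have i1 := (integrableOn_coord S hSc 1).const_mul (c 1)
  have i2 := (integrableOn_coord S hSc 2).const_mul (c 2)
  have ic : IntegrableOn (fun _ : E3 => (4 : ℝ)) S := integrableOn_const hfin
  have i01 : Integrable (fun x : E3 => c 0 * x 0 + c 1 * x 1) (volume.restrict S) := i0.add i1
  have i012 : Integrable (fun x : E3 => c 0 * x 0 + c 1 * x 1 + c 2 * x 2)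
      (volume.restrict S) := i01.add i2
  rw [integral_sub i012 ic, integral_add i01 i2, integral_add i0 i1,
    integral_const_mul, integral_const_mul, integral_const_mul, setIntegral_const]
  unfold mom vol
  rw [smul_eq_mul, measureReal_def]
  ring

theorem diff_bound (K K' S : Set E3) (hK : MeasurableSet K) (hK' : MeasurableSet K')
    (hKc : K ⊆ cube) (hK'c : K' ⊆ cube) (hS : (K' \ K) ∪ (K \ K') ⊆ S) (hSfin : volume S ≠ ⊤)
    (f : E3 → ℝ) (hf : IntegrableOn f cube) (hf0 : ∀ x ∈ cube, 0 ≤ f x)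
    (hf1 : ∀ x ∈ cube, f x ≤ 1) :
    |(∫ x in K', f x) - ∫ x in K, f x| ≤ volume.real S := by
  rw [setIntegral_sub_eq_diff hK' hK f (hf.mono_set hK'c) (hf.mono_set hKc)]
  have hA : MeasurableSet (K' \ K) := hK'.diff hK
  have hB : MeasurableSet (K \ K') := hK.diff hK'
  have hAc : K' \ K ⊆ cube := fun x hx => hK'c hx.1
  have hBc : K \ K' ⊆ cube := fun x hx => hKc hx.1
  have bound : ∀ D : Set E3, MeasurableSet D → D ⊆ cube →
      0 ≤ ∫ x in D, f x ∧ ∫ x in D, f x ≤ volume.real D := by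
    intro D hD hDc
    constructor
    · exact setIntegral_nonneg hD (fun x hx => hf0 x (hDc hx))
    · have hfin : volume D ≠ ⊤ := ne_top_of_le_ne_top volume_cube_ne_top (measure_mono hDc)
      have h1 : ∫ x in D, f x ≤ ∫ _ in D, (1 : ℝ) :=
        setIntegral_mono_on (hf.mono_set hDc) (integrableOn_const hfin) hD
          (fun x hx => hf1 x (hDc hx))
      rw [setIntegral_const, smul_eq_mul, mul_one] at h1
      exact h1
  obtain ⟨a1, a2⟩ := bound _ hA hAc
  obtain ⟨b1, b2⟩ := bound _ hB hBc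
  have hAfin : volume (K' \ K) ≠ ⊤ :=
    ne_top_of_le_ne_top volume_cube_ne_top (measure_mono hAc)
  have hBfin : volume (K \ K') ≠ ⊤ :=
    ne_top_of_le_ne_top volume_cube_ne_top (measure_mono hBc)
  have hdisj : Disjoint (K' \ K) (K \ K') := disjoint_sdiff_sdiff
  have hun : volume.real ((K' \ K) ∪ (K \ K')) = volume.real (K' \ K) + volume.real (K \ K') :=
    measureReal_union hdisj hB hAfin hBfin
  have hmono : volume.real ((K' \ K) ∪ (K \ K')) ≤ volume.real S := measureReal_mono hS hSfin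
  rw [abs_le]
  constructor <;> linarith

theorem deltaG_ge_pos (Dp Dm A : Set E3) (G : E3 → ℝ) (hDp : MeasurableSet Dp)
    (hDm : MeasurableSet Dm) (hA : MeasurableSet A) (hGDp : IntegrableOn G Dp)
    (hGp : ∀ x ∈ Dp, 0 ≤ G x) (hGm : ∀ x ∈ Dm, G x ≤ 0) (hADp : A ⊆ Dp) (γ : ℝ)
    (hγ : ∀ x ∈ A, γ ≤ G x) (hAfin : volume A ≠ ⊤) :
    γ * volume.real A ≤ (∫ x in Dp, G x) - ∫ x in Dm, G x := by
  have h1 : ∫ x in Dm, G x ≤ 0 := setIntegral_nonpos hDm hGm
  have h2 : ∫ x in A, G x ≤ ∫ x in Dp, G x := by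
    refine setIntegral_mono_set hGDp ?_ (Filter.Eventually.of_forall hADp)
    exact (ae_restrict_iff' hDp).mpr (Filter.Eventually.of_forall hGp)
  have h3 : ∫ _ in A, γ ≤ ∫ x in A, G x :=
    setIntegral_mono_on (integrableOn_const hAfin) (hGDp.mono_set hADp) hA hγ
  rw [setIntegral_const, smul_eq_mul, mul_comm] at h3
  linarith

theorem deltaG_ge_neg (Dp Dm A : Set E3) (G : E3 → ℝ) (hDp : MeasurableSet Dp)
    (hDm : MeasurableSet Dm) (hA : MeasurableSet A) (hGDm : IntegrableOn G Dm)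
    (hGp : ∀ x ∈ Dp, 0 ≤ G x) (hGm : ∀ x ∈ Dm, G x ≤ 0) (hADm : A ⊆ Dm) (γ : ℝ)
    (hγ : ∀ x ∈ A, G x ≤ -γ) (hAfin : volume A ≠ ⊤) :
    γ * volume.real A ≤ (∫ x in Dp, G x) - ∫ x in Dm, G x := by
  have h := deltaG_ge_pos Dm Dp A (fun x => -G x) hDm hDp hA hGDm.neg
    (fun x hx => neg_nonneg.mpr (hGm x hx)) (fun x hx => neg_nonpos.mpr (hGp x hx)) hADm γ
    (fun x hx => by
      have := hγ x hx
      linarith) hAfin
  rw [integral_neg, integral_neg] at h
  linarith

theorem G_sign_on_diff (K0 : Set E3) (u c : E3) (τ : ℝ) (hτ0 : 0 < τ) (hτ : 4 * τ < 1) :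
    (∀ x ∈ (K0 ∩ half (utilt u c τ)) \ (K0 ∩ half u),
        1 < dot u x ∧ dot u x - 1 ≤ τ * (dot c x - 4) ∧ 0 ≤ dot c x - 4) ∧
    (∀ x ∈ (K0 ∩ half u) \ (K0 ∩ half (utilt u c τ)),
        dot u x ≤ 1 ∧ τ * (dot c x - 4) < dot u x - 1 ∧ dot c x - 4 ≤ 0) := by
  constructor
  · rintro x ⟨⟨hx0, hxt⟩, hxn⟩
    have h1 : 1 < dot u x := by
      by_contra h
      exact hxn ⟨hx0, not_lt.mp h⟩
    have h2 := (mem_half_utilt u c τ hτ x).mp hxt
    refine ⟨h1, h2, ?_⟩
    have h3 : 0 < τ * (dot c x - 4) := by linarith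
    by_contra h
    have h4 : dot c x - 4 < 0 := not_le.mp h
    have := mul_neg_of_pos_of_neg hτ0 h4
    linarith
  · rintro x ⟨⟨hx0, hxu⟩, hxn⟩
    have h1 : dot u x ≤ 1 := hxu
    have h2 : τ * (dot c x - 4) < dot u x - 1 := by
      by_contra h
      exact hxn ⟨hx0, (mem_half_utilt u c τ hτ x).mpr (not_lt.mp h)⟩
    refine ⟨h1, h2, ?_⟩
    have h3 : τ * (dot c x - 4) < 0 := by linarith
    by_contra h
    have h4 : 0 < dot c x - 4 := not_le.mp h
    have := mul_pos hτ0 h4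
    linarith

theorem volume_preimage_box3_ne_top (u : E3) (hu0 : 0 < u 0) (a0 a1 a2 b0 b1 b2 : ℝ)
    (h0 : a0 ≤ b0) (h1 : a1 ≤ b1) (h2 : a2 ≤ b2) :
    volume (Phi u ⁻¹' box ![a0, a1, a2] ![b0, b1, b2]) ≠ ⊤ := by
  have hab : ∀ i : Fin 3, (![a0, a1, a2] : E3) i ≤ (![b0, b1, b2] : E3) i := by
    intro i
    fin_cases i
    · simpa using h0
    · simpa using h1
    · simpa using h2
  exact volume_preimage_box_ne_top u hu0 _ _ hab

/-! ### The tilt decreases `rho` once the first order term is bounded below -/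

theorem tilt_core (K0 : Set E3) (hK0 : MeasurableSet K0) (hsub : K0 ⊆ cube) (u : E3)
    (hu : ∀ i, 0 < u i) (hV : 0 < vol (K0 ∩ half u)) (hM : ∀ i, 0 < mom (K0 ∩ half u) i)
    (κ τ1 : ℝ) (hκ : 0 < κ) (hτ1 : 0 < τ1)
    (hlow : ∀ τ, 0 < τ → τ ≤ τ1 → 4 * τ < 1 →
      κ * τ ≤ (∫ x in (K0 ∩ half (utilt u (cvec (K0 ∩ half u)) τ)) \ (K0 ∩ half u),
                (dot (cvec (K0 ∩ half u)) x - 4))
            - ∫ x in (K0 ∩ half u) \ (K0 ∩ half (utilt u (cvec (K0 ∩ half u)) τ)),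
                (dot (cvec (K0 ∩ half u)) x - 4)) :
    ∃ u' : E3, (∀ i, 0 < u' i) ∧ rho (K0 ∩ half u') < rho (K0 ∩ half u) := by
  have hKm : MeasurableSet (K0 ∩ half u) := hK0.inter (isClosed_half u).measurableSet
  have hKc : K0 ∩ half u ⊆ cube := fun x hx => hsub hx.1
  set K := K0 ∩ half u with hKdef
  set c := cvec K with hcdef
  have hc : ∀ i, 0 < c i := fun i => div_pos hV (hM i)
  have hcv : ∀ i, c i = vol K / mom K i := fun i => rfl
  have hcM : ∀ i, c i * mom K i = vol K := fun i => by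
    rw [hcv i]
    exact div_mul_cancel₀ _ (hM i).ne'
  set Gmax := c 0 + c 1 + c 2 + 4 with hGmax
  have hGmax0 : 0 < Gmax := by
    have := hc 0
    have := hc 1
    have := hc 2
    linarith
  set m := min (vol K) (min (mom K 0) (min (mom K 1) (mom K 2))) with hm
  have hm0 : 0 < m := lt_min hV (lt_min (hM 0) (lt_min (hM 1) (hM 2)))
  have hmV : m ≤ vol K := min_le_left _ _
  have hmM0 : m ≤ mom K 0 := le_trans (min_le_right _ _) (min_le_left _ _)
  have hmM1 : m ≤ mom K 1 :=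
    le_trans (min_le_right _ _) (le_trans (min_le_right _ _) (min_le_left _ _))
  have hmM2 : m ≤ mom K 2 :=
    le_trans (min_le_right _ _) (le_trans (min_le_right _ _) (min_le_right _ _))
  have hu0 := hu 0
  set κd := (u 0)⁻¹ * (3 * Gmax * 2 * 2) with hκd
  have hκd0 : 0 < κd := by positivity
  -- the choice of the tilt parameter
  set t2 := min (u 0 / (2 * c 0)) (min (u 1 / (2 * c 1)) (u 2 / (2 * c 2))) with ht2
  have ht20 : 0 < t2 :=
    lt_min (div_pos (hu 0) (mul_pos two_pos (hc 0)))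
      (lt_min (div_pos (hu 1) (mul_pos two_pos (hc 1))) (div_pos (hu 2) (mul_pos two_pos (hc 2))))
  set t4 := m / (2 * κd) with ht4
  have ht40 : 0 < t4 := by positivity
  set t5 := κ * m ^ 2 / (26 * κd ^ 2 * vol K) with ht5
  have ht50 : 0 < t5 := by positivity
  set τ := min τ1 (min (1 / 8) (min t2 (min t4 t5))) with hτdef
  have hτ0 : 0 < τ := lt_min hτ1 (lt_min (by norm_num) (lt_min ht20 (lt_min ht40 ht50)))
  have hττ1 : τ ≤ τ1 := min_le_left _ _
  have hτ8 : τ ≤ 1 / 8 := le_trans (min_le_right _ _) (min_le_left _ _)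
  have hτt2 : τ ≤ t2 :=
    le_trans (min_le_right _ _) (le_trans (min_le_right _ _) (min_le_left _ _))
  have hτt4 : τ ≤ t4 :=
    le_trans (min_le_right _ _) (le_trans (min_le_right _ _)
      (le_trans (min_le_right _ _) (min_le_left _ _)))
  have hτt5 : τ ≤ t5 :=
    le_trans (min_le_right _ _) (le_trans (min_le_right _ _)
      (le_trans (min_le_right _ _) (min_le_right _ _)))
  have hτ4 : 4 * τ < 1 := by linarith
  set u' := utilt u c τ with hu'
  refine ⟨u', ?_, ?_⟩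
  · intro i
    have hti : τ ≤ u i / (2 * c i) := by
      fin_cases i
      · exact le_trans hτt2 (min_le_left _ _)
      · exact le_trans hτt2 (le_trans (min_le_right _ _) (min_le_left _ _))
      · exact le_trans hτt2 (le_trans (min_le_right _ _) (min_le_right _ _))
    have hci := hc i
    have h1 : τ * (2 * c i) ≤ u i := by
      rw [le_div_iff₀ (mul_pos two_pos hci)] at hti
      exact hti
    have h2 : 0 < u i - τ * c i := by
      have := hu i
      linarith
    change 0 < (u i - τ * c i) / (1 - 4 * τ)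
    exact div_pos h2 (by linarith)
  · set K' := K0 ∩ half u' with hK'def
    have hK'm : MeasurableSet K' := hK0.inter (isClosed_half u').measurableSet
    have hK'c : K' ⊆ cube := fun x hx => hsub hx.1
    have hτG : 0 < τ * Gmax := mul_pos hτ0 hGmax0
    set S := Phi u ⁻¹' box ![1 - 2 * (τ * Gmax), -1, -1] ![1 + τ * Gmax, 1, 1] with hSdef
    have hSvol : volume.real S = κd * τ := by
      rw [hSdef, volume_real_preimage_box3 u (hu 0) _ _ _ _ _ _ (by linarith) (by norm_num)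
        (by norm_num), hκd]
      ring
    have hSfin : volume S ≠ ⊤ :=
      volume_preimage_box3_ne_top u (hu 0) _ _ _ _ _ _ (by linarith) (by norm_num)
        (by norm_num)
    have hsign := G_sign_on_diff K0 u c τ hτ0 hτ4
    have hS : (K' \ K) ∪ (K \ K') ⊆ S := by
      rintro x (hx | hx)
      · obtain ⟨h1, h2, h3⟩ := hsign.1 x hx
        have hxc : x ∈ cube := hK'c hx.1
        have hb := (abs_le.mp (dot_bounds c (fun i => (hc i).le) x hxc)).2
        have hb2 := mul_le_mul_of_nonneg_left hb hτ0.le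
        have hx' := (mem_cube_iff x).mp hxc
        rw [hSdef, mem_preimage_box3]
        exact ⟨⟨by linarith, by linarith⟩, ⟨by linarith [(hx' 1).1], (hx' 1).2⟩,
          ⟨by linarith [(hx' 2).1], (hx' 2).2⟩⟩
      · obtain ⟨h1, h2, h3⟩ := hsign.2 x hx
        have hxc : x ∈ cube := hKc hx.1
        have hb := (abs_le.mp (dot_bounds c (fun i => (hc i).le) x hxc)).1
        have hb2 := mul_le_mul_of_nonneg_left hb hτ0.le
        have hx' := (mem_cube_iff x).mp hxc
        rw [hSdef, mem_preimage_box3]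
        exact ⟨⟨by linarith, by linarith⟩, ⟨by linarith [(hx' 1).1], (hx' 1).2⟩,
          ⟨by linarith [(hx' 2).1], (hx' 2).2⟩⟩
    have hdV : |vol K' - vol K| ≤ κd * τ := by
      rw [vol_eq_integral K', vol_eq_integral K, ← hSvol]
      exact diff_bound K K' S hKm hK'm hKc hK'c hS hSfin (fun _ => 1)
        (continuousOn_const.integrableOn_compact isCompact_cube) (fun _ _ => zero_le_one)
        (fun _ _ => le_rfl)
    have hdM : ∀ i, |mom K' i - mom K i| ≤ κd * τ := by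
      intro i
      rw [← hSvol]
      exact diff_bound K K' S hKm hK'm hKc hK'c hS hSfin (fun x => x i)
        ((continuous_apply i).continuousOn.integrableOn_compact isCompact_cube)
        (fun x hx => ((mem_cube_iff x).mp hx i).1) (fun x hx => ((mem_cube_iff x).mp hx i).2)
    have he : κ * τ ≤ vol K / mom K 0 * mom K' 0 + vol K / mom K 1 * mom K' 1
        + vol K / mom K 2 * mom K' 2 - 4 * vol K' + vol K := by
      have h1 := hlow τ hτ0 hττ1 hτ4
      have h2 := setIntegral_sub_eq_diff hK'm hKm (fun x => dot c x - 4)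
        (integrableOn_G c K' hK'c) (integrableOn_G c K hKc)
      rw [integral_G c K' hK'c, integral_G c K hKc] at h2
      have e0 := hcM 0
      have e1 := hcM 1
      have e2 := hcM 2
      rw [← hcv 0, ← hcv 1, ← hcv 2]
      linarith
    have hbig : 13 * (κd * τ / m) ^ 2 * vol K < κ * τ := by
      have h1 : τ * (26 * κd ^ 2 * vol K) ≤ κ * m ^ 2 := by
        rw [ht5, le_div_iff₀ (by positivity)] at hτt5
        exact hτt5
      have h3 : 13 * (κd * τ / m) ^ 2 * vol K = 13 * κd ^ 2 * τ ^ 2 * vol K / m ^ 2 := by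
        field_simp
      rw [h3, div_lt_iff₀ (by positivity)]
      have h4 := mul_le_mul_of_nonneg_left h1 hτ0.le
      have h5 : 0 < κ * τ * m ^ 2 := by positivity
      nlinarith
    have hd : κd * τ ≤ m / 2 := by
      rw [ht4, le_div_iff₀ (by positivity)] at hτt4
      linarith
    exact rho_lt (vol K) (mom K 0) (mom K 1) (mom K 2) (vol K') (mom K' 0) (mom K' 1)
      (mom K' 2) m (κd * τ) (κ * τ) hm0 hmV hmM0 hmM1 hmM2 hd hdV (hdM 0) (hdM 1) (hdM 2) he hbig

/-- **The finite tilt.**  Let `K = K0 ∩ half u` with all coefficients of `u` positive, `K0` a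
measurable subset of the unit cube.  If some interior point `x0` of `K0` on the plane
`u · x = 1` has `cvec K · x0 ≠ 4`, then some half-space with positive coefficients gives a
strictly smaller value of `rho`. -/
theorem tilt_set (K0 : Set E3) (hK0 : MeasurableSet K0) (hsub : K0 ⊆ cube) (u : E3)
    (hu : ∀ i, 0 < u i) (hV : 0 < vol (K0 ∩ half u)) (hM : ∀ i, 0 < mom (K0 ∩ half u) i)
    (x0 : E3) (hx0 : x0 ∈ interior K0) (hux : dot u x0 = 1)
    (hG : dot (cvec (K0 ∩ half u)) x0 ≠ 4) :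
    ∃ u' : E3, (∀ i, 0 < u' i) ∧ rho (K0 ∩ half u') < rho (K0 ∩ half u) := by
  set c := cvec (K0 ∩ half u) with hcdef
  have hKm : MeasurableSet (K0 ∩ half u) := hK0.inter (isClosed_half u).measurableSet
  set g := |dot c x0 - 4| with hg
  have hg0 : 0 < g := abs_pos.mpr (sub_ne_zero.mpr hG)
  have hopen : IsOpen (interior K0 ∩ {x | |(dot c x - 4) - (dot c x0 - 4)| < g / 2}) :=
    isOpen_interior.inter
      (isOpen_lt (((continuous_dot c).sub continuous_const).sub continuous_const).abs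
        continuous_const)
  have hx0mem : x0 ∈ interior K0 ∩ {x | |(dot c x - 4) - (dot c x0 - 4)| < g / 2} := by
    refine ⟨hx0, ?_⟩
    change |(dot c x0 - 4) - (dot c x0 - 4)| < g / 2
    rw [sub_self, abs_zero]
    positivity
  obtain ⟨r1, hr1, hball⟩ := Metric.nhds_basis_closedBall.mem_iff.mp (hopen.mem_nhds hx0mem)
  have hu0 := hu 0
  have hu12 : 0 < u 1 + u 2 := add_pos (hu 1) (hu 2)
  set r2 := min r1 (u 0 * r1 / (2 * (u 1 + u 2))) with hr2
  have hr20 : 0 < r2 := lt_min hr1 (div_pos (mul_pos (hu 0) hr1) (by positivity))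
  have hr2r1 : r2 ≤ r1 := min_le_left _ _
  have hr2' : (u 1 + u 2) * r2 ≤ u 0 * r1 / 2 := by
    have h1 : r2 ≤ u 0 * r1 / (2 * (u 1 + u 2)) := min_le_right _ _
    rw [le_div_iff₀ (by positivity)] at h1
    linarith
  refine tilt_core K0 hK0 hsub u hu hV hM
    ((g / 2) * ((u 0)⁻¹ * (g / 2 * (2 * r2) * (2 * r2)))) (u 0 * r1 / g)
    (by positivity) (by positivity) ?_
  intro τ hτ0 hττ1 hτ4
  have hη : τ * g / 2 ≤ u 0 * r1 / 2 := by
    rw [le_div_iff₀ hg0] at hττ1
    linarith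
  have hτg : 0 < τ * g := mul_pos hτ0 hg0
  have hsign := G_sign_on_diff K0 u c τ hτ0 hτ4
  have hDpm : MeasurableSet ((K0 ∩ half (utilt u c τ)) \ (K0 ∩ half u)) :=
    (hK0.inter (isClosed_half _).measurableSet).diff hKm
  have hDmm : MeasurableSet ((K0 ∩ half u) \ (K0 ∩ half (utilt u c τ))) :=
    hKm.diff (hK0.inter (isClosed_half _).measurableSet)
  have hDpc : (K0 ∩ half (utilt u c τ)) \ (K0 ∩ half u) ⊆ cube := fun x hx => hsub hx.1.1
  have hDmc : (K0 ∩ half u) \ (K0 ∩ half (utilt u c τ)) ⊆ cube := fun x hx => hsub hx.1.1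
  rcases lt_or_gt_of_ne hG with hneg | hpos
  · -- the case `cvec K · x0 < 4`
    have hgval : g = -(dot c x0 - 4) := by
      rw [hg]
      exact abs_of_neg (by linarith)
    set A := Phi u ⁻¹' box ![1 - τ * g / 2, x0 1 - r2, x0 2 - r2] ![1, x0 1 + r2, x0 2 + r2]
      with hA
    have hAm : MeasurableSet A := measurableSet_preimage_box u _ _
    have hAvol : volume.real A = (u 0)⁻¹ * (τ * g / 2 * (2 * r2) * (2 * r2)) := by
      rw [hA, volume_real_preimage_box3 u (hu 0) _ _ _ _ _ _ (by linarith) (by linarith)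
        (by linarith)]
      ring
    have hAfin : volume A ≠ ⊤ :=
      volume_preimage_box3_ne_top u (hu 0) _ _ _ _ _ _ (by linarith) (by linarith)
        (by linarith)
    have hAball : ∀ x ∈ A, x ∈ Metric.closedBall x0 r1 := by
      intro x hx
      rw [hA, mem_preimage_box3] at hx
      obtain ⟨⟨h0a, h0b⟩, ⟨h1a, h1b⟩, ⟨h2a, h2b⟩⟩ := hx
      refine mem_closedBall_of_box u hu x0 hux r1 r2 (τ * g / 2) hr1.le hr2r1 hr2' hη x ?_ ?_ ?_
      · rw [abs_le]
        constructor <;> linarith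
      · rw [abs_le]
        constructor <;> linarith
      · rw [abs_le]
        constructor <;> linarith
    have hGA : ∀ x ∈ A, dot c x - 4 ≤ -(g / 2) := by
      intro x hx
      have hb : |(dot c x - 4) - (dot c x0 - 4)| < g / 2 := (hball (hAball x hx)).2
      have := (abs_lt.mp hb).2
      linarith
    have hADm : A ⊆ (K0 ∩ half u) \ (K0 ∩ half (utilt u c τ)) := by
      intro x hx
      have hxK0 : x ∈ K0 := interior_subset (hball (hAball x hx)).1
      have hGx := hGA x hx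
      rw [hA, mem_preimage_box3] at hx
      obtain ⟨⟨h0a, h0b⟩, _, _⟩ := hx
      refine ⟨⟨hxK0, h0b⟩, ?_⟩
      rintro ⟨_, hxt⟩
      have h4 := (mem_half_utilt u c τ hτ4 x).mp hxt
      have h5 : τ * (dot c x - 4) ≤ τ * (-(g / 2)) := mul_le_mul_of_nonneg_left hGx hτ0.le
      linarith
    have key := deltaG_ge_neg ((K0 ∩ half (utilt u c τ)) \ (K0 ∩ half u))
      ((K0 ∩ half u) \ (K0 ∩ half (utilt u c τ))) A (fun x => dot c x - 4) hDpm hDmm hAm
      (integrableOn_G c _ hDmc) (fun x hx => (hsign.1 x hx).2.2) (fun x hx => (hsign.2 x hx).2.2)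
      hADm (g / 2) hGA hAfin
    rw [hAvol] at key
    calc g / 2 * ((u 0)⁻¹ * (g / 2 * (2 * r2) * (2 * r2))) * τ
        = g / 2 * ((u 0)⁻¹ * (τ * g / 2 * (2 * r2) * (2 * r2))) := by ring
      _ ≤ _ := key
  · -- the case `4 < cvec K · x0`
    have hgval : g = dot c x0 - 4 := by
      rw [hg]
      exact abs_of_pos (by linarith)
    set A := Phi u ⁻¹' box ![1, x0 1 - r2, x0 2 - r2] ![1 + τ * g / 2, x0 1 + r2, x0 2 + r2]
      with hA
    have hAm : MeasurableSet A := measurableSet_preimage_box u _ _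
    have hAvol : volume.real A = (u 0)⁻¹ * (τ * g / 2 * (2 * r2) * (2 * r2)) := by
      rw [hA, volume_real_preimage_box3 u (hu 0) _ _ _ _ _ _ (by linarith) (by linarith)
        (by linarith)]
      ring
    have hAfin : volume A ≠ ⊤ :=
      volume_preimage_box3_ne_top u (hu 0) _ _ _ _ _ _ (by linarith) (by linarith)
        (by linarith)
    have hAball : ∀ x ∈ A, x ∈ Metric.closedBall x0 r1 := by
      intro x hx
      rw [hA, mem_preimage_box3] at hx
      obtain ⟨⟨h0a, h0b⟩, ⟨h1a, h1b⟩, ⟨h2a, h2b⟩⟩ := hx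
      refine mem_closedBall_of_box u hu x0 hux r1 r2 (τ * g / 2) hr1.le hr2r1 hr2' hη x ?_ ?_ ?_
      · rw [abs_le]
        constructor <;> linarith
      · rw [abs_le]
        constructor <;> linarith
      · rw [abs_le]
        constructor <;> linarith
    have hGA : ∀ x ∈ A, g / 2 ≤ dot c x - 4 := by
      intro x hx
      have hb : |(dot c x - 4) - (dot c x0 - 4)| < g / 2 := (hball (hAball x hx)).2
      have := (abs_lt.mp hb).1
      linarith
    have hADp : A ⊆ (K0 ∩ half (utilt u c τ)) \ (K0 ∩ half u) := by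
      intro x hx
      have hxK0 : x ∈ K0 := interior_subset (hball (hAball x hx)).1
      have hGx := hGA x hx
      rw [hA, mem_preimage_box3] at hx
      obtain ⟨⟨h0a, h0b⟩, _, _⟩ := hx
      have h5 : τ * (g / 2) ≤ τ * (dot c x - 4) := mul_le_mul_of_nonneg_left hGx hτ0.le
      refine ⟨⟨hxK0, (mem_half_utilt u c τ hτ4 x).mpr (by linarith)⟩, ?_⟩
      rintro ⟨_, hxu⟩
      have h6 : dot u x ≤ 1 := hxu
      linarith
    have key := deltaG_ge_pos ((K0 ∩ half (utilt u c τ)) \ (K0 ∩ half u))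
      ((K0 ∩ half u) \ (K0 ∩ half (utilt u c τ))) A (fun x => dot c x - 4) hDpm hDmm hAm
      (integrableOn_G c _ hDpc) (fun x hx => (hsign.1 x hx).2.2) (fun x hx => (hsign.2 x hx).2.2)
      hADp (g / 2) hGA hAfin
    rw [hAvol] at key
    calc g / 2 * ((u 0)⁻¹ * (g / 2 * (2 * r2) * (2 * r2))) * τ
        = g / 2 * ((u 0)⁻¹ * (τ * g / 2 * (2 * r2) * (2 * r2))) := by ring
      _ ≤ _ := key

end Vale.Agent.Lib.P254.Lim
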